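import Mathlib

open Polynomial ContinuousLinearMap

namespace Vale.Agent.Results.P123.KrylovReduction

universe u

/-- CrouzeixBound C A P: the inequality ‖P(A)‖ ≤ C sup_{W(A)} |P|, written without suprema:
every upper bound M of |P| on the numerical range gives ‖P(A)‖ ≤ C M. -/
def CrouzeixBound {H : Type u} [NormedAddCommGroup H] [InnerProductSpace ℂ H]
    (C : ℝ) (A : H →L[ℂ] H) (P : ℂ[X]) : Prop :=
  ∀ M : ℝ, (∀ x : H, ‖x‖ = 1 → ‖P.eval (inner ℂ x (A x))‖ ≤ M) → ‖aeval A P‖ ≤ C * M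

section aux

variable {H : Type u} [NormedAddCommGroup H] [InnerProductSpace ℂ H] [CompleteSpace H]
variable {E : Type} [NormedAddCommGroup E] [InnerProductSpace ℂ E] [CompleteSpace E]

/-- compression of A along an isometry -/
noncomputable def compr (ι : E →ₗᵢ[ℂ] H) (A : H →L[ℂ] H) : E →L[ℂ] E :=
  (adjoint ι.toContinuousLinearMap) ∘L A ∘L ι.toContinuousLinearMap

lemma adj_iso (ι : E →ₗᵢ[ℂ] H) (y : E) :
    adjoint ι.toContinuousLinearMap (ι y) = y := by
  apply ext_inner_left ℂ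
  intro z
  rw [adjoint_inner_right]
  simp

lemma compr_inner (ι : E →ₗᵢ[ℂ] H) (A : H →L[ℂ] H) (y : E) :
    inner ℂ y (compr ι A y) = inner ℂ (ι y) (A (ι y)) := by
  unfold compr
  simp [adjoint_inner_right]

lemma compr_apply (ι : E →ₗᵢ[ℂ] H) (A : H →L[ℂ] H) (y : E) :
    compr ι A y = adjoint ι.toContinuousLinearMap (A (ι y)) := rfl

lemma compr_pow (ι : E →ₗᵢ[ℂ] H) (A : H →L[ℂ] H) (y : E) (d : ℕ)
    (h : ∀ i ≤ d, (A ^ i) (ι y) ∈ Set.range ι) :
    ∀ i ≤ d, ι ((compr ι A ^ i) y) = (A ^ i) (ι y) := by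
  intro i
  induction i with
  | zero => intro _; simp
  | succ k ih =>
    intro hk
    have h1 := ih (by omega)
    obtain ⟨z, hz⟩ := h (k+1) hk
    have e1 : (compr ι A ^ (k+1)) y = compr ι A ((compr ι A ^ k) y) := by
      rw [pow_succ']; rfl
    have e2 : (A ^ (k+1)) (ι y) = A ((A ^ k) (ι y)) := by
      rw [pow_succ']; rfl
    rw [e1, compr_apply, h1, ← e2, ← hz, adj_iso]

lemma compr_aeval (ι : E →ₗᵢ[ℂ] H) (A : H →L[ℂ] H) (y : E) (d : ℕ)
    (h : ∀ i ≤ d, (A ^ i) (ι y) ∈ Set.range ι) (P : ℂ[X]) (hP : P.natDegree ≤ d) :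
    ι ((aeval (compr ι A) P) y) = (aeval A P) (ι y) := by
  rw [aeval_eq_sum_range' (n := d+1) (by omega), aeval_eq_sum_range' (n := d+1) (by omega)]
  simp only [ContinuousLinearMap.coe_sum', Finset.sum_apply, ContinuousLinearMap.coe_smul', Pi.smul_apply, map_sum, map_smul]
  apply Finset.sum_congr rfl
  intro i hi
  rw [compr_pow ι A y d h i (by have := Finset.mem_range.mp hi; omega)]

end aux

theorem result (C : ℝ) (d : ℕ)
    (hmat : ∀ m : ℕ, 1 ≤ m → m ≤ d + 1 →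
      ∀ (B : EuclideanSpace ℂ (Fin m) →L[ℂ] EuclideanSpace ℂ (Fin m)) (P : ℂ[X]),
        P.natDegree ≤ d → CrouzeixBound C B P)
    (H : Type u) [NormedAddCommGroup H] [InnerProductSpace ℂ H] [CompleteSpace H] [Nontrivial H]
    (A : H →L[ℂ] H) (P : ℂ[X]) (hP : P.natDegree ≤ d) : CrouzeixBound C A P := by
  intro M hM
  have key : ∀ x : H, x ≠ 0 → 0 ≤ C * M ∧ ‖(aeval A P) x‖ ≤ C * M * ‖x‖ := by
    intro x hx
    set K : Submodule ℂ H := Submodule.span ℂ (Set.range (fun i : Fin (d+1) => (A ^ (i:ℕ)) x))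
      with hK
    have hmem : ∀ i ≤ d, (A ^ i) x ∈ K := by
      intro i hi
      apply Submodule.subset_span
      exact ⟨⟨i, by omega⟩, rfl⟩
    have hfd : FiniteDimensional ℂ K := FiniteDimensional.span_of_finite ℂ (Set.finite_range _)
    have hxK : x ∈ K := by simpa using hmem 0 (Nat.zero_le _)
    have hnt : Nontrivial K := ⟨⟨⟨x, hxK⟩, 0, by
      intro h; apply hx; exact congrArg Subtype.val h⟩⟩
    have hm1 : 1 ≤ Module.finrank ℂ K := Module.finrank_pos
    have hm2 : Module.finrank ℂ K ≤ d + 1 := by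
      have := finrank_range_le_card (R := ℂ) (fun i : Fin (d+1) => (A ^ (i:ℕ)) x)
      simpa [Set.finrank] using this
    let e := (stdOrthonormalBasis ℂ K).repr
    let ι : EuclideanSpace ℂ (Fin (Module.finrank ℂ K)) →ₗᵢ[ℂ] H :=
      K.subtypeₗᵢ.comp e.symm.toLinearIsometry
    have hι : ∀ v : K, ι (e v) = v := by
      intro v
      simp [ι]
    have hy : ι (e ⟨x, hxK⟩) = x := hι _
    have hr : ∀ i ≤ d, (A ^ i) (ι (e ⟨x, hxK⟩)) ∈ Set.range ι := by
      intro i hi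
      rw [hy]
      exact ⟨e ⟨_, hmem i hi⟩, hι _⟩
    have hB := hmat _ hm1 hm2 (compr ι A) P hP M (by
      intro y hy1
      rw [compr_inner]
      exact hM (ι y) (by rw [ι.norm_map]; exact hy1))
    refine ⟨le_trans (norm_nonneg _) hB, ?_⟩
    have h1 := compr_aeval ι A (e ⟨x, hxK⟩) d hr P hP
    rw [hy] at h1
    rw [← h1, ι.norm_map]
    calc ‖(aeval (compr ι A) P) (e ⟨x, hxK⟩)‖ ≤ ‖aeval (compr ι A) P‖ * ‖e ⟨x, hxK⟩‖ :=
          ContinuousLinearMap.le_opNorm _ _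
      _ ≤ C * M * ‖e ⟨x, hxK⟩‖ := by gcongr
      _ = C * M * ‖x‖ := by rw [e.norm_map]; rfl
  obtain ⟨x0, hx0⟩ := exists_ne (0 : H)
  apply ContinuousLinearMap.opNorm_le_bound _ (key x0 hx0).1
  intro x
  by_cases hx : x = 0
  · subst hx; simp
  · exact (key x hx).2

end Vale.Agent.Results.P123.KrylovReduction
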